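import Mathlib

/-! Choice of the small parameters of the game (helper908). -/

namespace Vale.Agent.P339.R2.H908

theorem exists_small2 {D : ℝ} (hD : 0 < D) (hD1 : D ≤ 1) : ∃ (c d c1 ρ δ : ℝ) (K0 l : ℕ),
    0 < c ∧ 0 < d ∧ 0 < c1 ∧ 0 ≤ ρ ∧ 0 < K0 ∧ 0 < l ∧ 1 / 2 ^ l < c ∧ 1 / 2 ^ l < d ∧
    c ^ 2 + 14 / 2 ^ l ≤ ρ ^ 4 ∧ 8 * (1 / c) ^ 2 / 2 ^ l ≤ δ ∧ δ ≤ 1 ∧
    Real.sqrt (8 / 2 ^ l + 2 * ρ + 4 * δ) + 4 * (1 / c) / 2 ^ l + δ ≤ D ∧
    8 * (1 / c) ^ 2 / 2 ^ l + 4 * (1 / c) * (d + 1 / d / 2 ^ l + 1 / 2 ^ l)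
      + 1 / d * (c1 + 1 / 2 ^ K0) + (2 + 6 * (1 / d) ^ 2) / 2 ^ l ≤ D ∧
    (1 : ℝ) / 2 ^ l ≤ d ^ 2 / 32 ∧ (1 : ℝ) / 2 ^ l ≤ d / 2 := by
  set κ : ℝ := (D / 2) ^ 2 with hκ
  have hκ0 : 0 < κ := by positivity
  have hκ1 : κ ≤ D / 4 := by
    rw [hκ]
    nlinarith
  set ρ : ℝ := κ / 8 with hρ
  have hρ0 : 0 < ρ := by positivity
  set δ : ℝ := κ / 16 with hδ
  have hδ0 : 0 < δ := by positivity
  set c : ℝ := ρ ^ 2 / 2 with hc
  have hc0 : 0 < c := by positivity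
  set d : ℝ := c * D / 64 with hd
  have hd0 : 0 < d := by positivity
  set c1 : ℝ := d * D / 16 with hc1
  have hc10 : 0 < c1 := by positivity
  have hdc : d < c := by
    rw [hd]
    nlinarith
  have hci : 0 < 1 / c := by positivity
  have hdi : 0 < 1 / d := by positivity
  have hq : 0 < 2 + 6 * (1 / d) ^ 2 := by positivity
  obtain ⟨n1, hn1⟩ := exists_pow_lt_of_lt_one hc10 (show (1 / 2 : ℝ) < 1 by norm_num)
  have hT : 0 < min (κ / 32) (min (ρ ^ 4 / 28) (min (δ * c ^ 2 / 8) (min (c ^ 2 * D / 64)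
    (min (c * D / 64) (min (c * d * D / 64) (min (D / (8 * (2 + 6 * (1 / d) ^ 2)))
    (min (d ^ 2 / 32) (d / 2)))))))) := by
    refine lt_min (by positivity) (lt_min (by positivity) (lt_min (by positivity)
      (lt_min (by positivity) (lt_min (by positivity) (lt_min (by positivity)
      (lt_min (by positivity) (lt_min (by positivity) (by positivity))))))))
  obtain ⟨n2, hn2⟩ := exists_pow_lt_of_lt_one hT (show (1 / 2 : ℝ) < 1 by norm_num)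
  have hhalf : ∀ n : ℕ, (1 : ℝ) / 2 ^ (n + 1) ≤ (1 / 2) ^ n := fun n => by
    rw [pow_succ, div_pow, one_pow]
    refine one_div_le_one_div_of_le (by positivity) ?_
    have : (0 : ℝ) < 2 ^ n := by positivity
    linarith
  have hl : (1 : ℝ) / 2 ^ (n2 + 1) ≤ (1 / 2) ^ n2 := hhalf n2
  have hK' : (1 : ℝ) / 2 ^ (n1 + 1) ≤ c1 := (hhalf n1).trans hn1.le
  simp only [lt_min_iff] at hn2
  obtain ⟨t1, t2, t3, t4, t5, t6, t7, t8, t9⟩ := hn2
  set τ : ℝ := 1 / 2 ^ (n2 + 1) with hτd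
  have hτ0 : 0 < τ := by positivity
  have hdiv : ∀ x : ℝ, x / 2 ^ (n2 + 1) = x * τ := fun x => by rw [hτd]; ring
  have s9 : τ ≤ d / 2 := hl.trans t9.le
  have e3 : 8 * (1 / c) ^ 2 * τ ≤ δ := by
    have h : 8 * (1 / c) ^ 2 * τ ≤ 8 * (1 / c) ^ 2 * (δ * c ^ 2 / 8) :=
      mul_le_mul_of_nonneg_left (hl.trans t3.le) (by positivity)
    refine h.trans (le_of_eq ?_)
    field_simp
  have e4 : 8 * (1 / c) ^ 2 * τ ≤ D / 8 := by
    have h : 8 * (1 / c) ^ 2 * τ ≤ 8 * (1 / c) ^ 2 * (c ^ 2 * D / 64) :=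
      mul_le_mul_of_nonneg_left (hl.trans t4.le) (by positivity)
    refine h.trans (le_of_eq ?_)
    field_simp
    ring
  have e5 : 4 * (1 / c) * τ ≤ D / 16 := by
    have h : 4 * (1 / c) * τ ≤ 4 * (1 / c) * (c * D / 64) :=
      mul_le_mul_of_nonneg_left (hl.trans t5.le) (by positivity)
    refine h.trans (le_of_eq ?_)
    field_simp
    ring
  have e6 : 4 * (1 / c) * (1 / d * τ) ≤ D / 16 := by
    have h : 4 * (1 / c) * (1 / d * τ) ≤ 4 * (1 / c) * (1 / d * (c * d * D / 64)) :=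
      mul_le_mul_of_nonneg_left (mul_le_mul_of_nonneg_left (hl.trans t6.le) hdi.le) (by positivity)
    refine h.trans (le_of_eq ?_)
    field_simp
    ring
  have e7 : (2 + 6 * (1 / d) ^ 2) * τ ≤ D / 8 := by
    have h := mul_le_mul_of_nonneg_left (hl.trans t7.le) hq.le
    refine h.trans (le_of_eq ?_)
    field_simp
  have e8 : 4 * (1 / c) * d = D / 16 := by
    rw [hd]
    field_simp
    ring
  have e9 : 1 / d * (c1 + 1 / 2 ^ (n1 + 1)) ≤ D / 8 := by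
    have h : 1 / d * (c1 + 1 / 2 ^ (n1 + 1)) ≤ 1 / d * (c1 + c1) :=
      mul_le_mul_of_nonneg_left (by linarith) hdi.le
    refine h.trans (le_of_eq ?_)
    rw [hc1]
    field_simp
    ring
  refine ⟨c, d, c1, ρ, δ, n1 + 1, n2 + 1, hc0, hd0, hc10, hρ0.le, by omega, by omega, ?_, ?_, ?_,
    ?_, ?_, ?_, ?_, ?_, ?_⟩
  · linarith
  · linarith
  · rw [hdiv]
    have e1 : c ^ 2 = ρ ^ 4 / 4 := by rw [hc]; ring
    rw [e1]
    have : 0 < ρ ^ 4 := by positivity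
    linarith
  · rw [hdiv]
    exact e3
  · rw [hδ]
    linarith
  · rw [hdiv, hdiv]
    have e1 : Real.sqrt (8 * τ + 2 * ρ + 4 * δ) ≤ D / 2 := by
      rw [Real.sqrt_le_left (by positivity), ← hκ]
      rw [hδ, hρ]
      linarith
    have e2 : δ ≤ D / 64 := by
      rw [hδ]
      linarith
    linarith
  · rw [hdiv (8 * (1 / c) ^ 2), hdiv (1 / d), hdiv (2 + 6 * (1 / d) ^ 2), ← hτd]
    have e1 : 4 * (1 / c) * (d + 1 / d * τ + τ) =
        4 * (1 / c) * d + 4 * (1 / c) * (1 / d * τ) + 4 * (1 / c) * τ := by ring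
    rw [e1]
    linarith
  · exact hl.trans t8.le
  · exact s9

end Vale.Agent.P339.R2.H908
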